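import Mathlib.Analysis.InnerProductSpace.l2Space
import Mathlib.Topology.MetricSpace.Snowflaking

/-! # P208: the definitions of the statement -/

namespace Vale.Agent.N208

/-- Real separable Hilbert space `ℓ²`. -/
abbrev L2 : Type := lp (fun _ : ℕ => ℝ) 2

/-- Euclidean space `ℝ^k`. -/
abbrev Rk (k : ℕ) : Type := EuclideanSpace ℝ (Fin k)

/-- The metric space `X` is doubling with constant at most `lam`: every (closed) ball is covered by
at most `lam` (open) balls of half its radius, with centers in `X`. -/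
def Doubling (lam : ℕ) (X : Type) [MetricSpace X] : Prop :=
  ∀ (x : X) (r : ℝ), 0 < r → ∃ T : Finset X, T.card ≤ lam ∧
    Metric.closedBall x r ⊆ ⋃ z ∈ T, Metric.ball z (r / 2)

/-- The metric space `X` has a bi-Lipschitz embedding into the metric space `Y` with distortion at
most `D`. -/
def Embeds (X Y : Type) [MetricSpace X] [MetricSpace Y] (D : ℝ) : Prop :=
  ∃ (f : X → Y) (a : ℝ), 0 < a ∧
    ∀ x y, a * dist x y ≤ dist (f x) (f y) ∧ dist (f x) (f y) ≤ D * a * dist x y

/-- For all `α ≤ 1` close to one, the snowflake `(X, d^α)` has no embedding into `ℝ^k` with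
distortion at most `D`. -/
def NoSnow (X : Type) [MetricSpace X] (k : ℕ) (D : ℝ) : Prop :=
  ∃ b < (1 : ℝ), ∀ (α : ℝ) (h0 : 0 < α) (h1 : α ≤ 1), b ≤ α →
    ¬Embeds (Metric.Snowflaking X α h0 h1) (Rk k) D

/-- Some Lipschitz map of `X` into `ℝ^k` shrinks every distance `d` by at most a constant times
`ψ d`. -/
def Almost (X : Type) [MetricSpace X] (k : ℕ) (ψ : ℝ → ℝ) : Prop :=
  ∃ (f : X → Rk k) (C : ℝ), ∀ x y, dist x y ≤ C * ψ (dist x y) * dist (f x) (f y) ∧
    dist (f x) (f y) ≤ C * dist x y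

end Vale.Agent.N208
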