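import Vale.Agent.P208.H257.Main
import Vale.Agent.N208.Defs
import Mathlib.Analysis.InnerProductSpace.Projection.FiniteDimensional

/-!
# P208: one test space for the finite dimensionality, snowflakes, projections to a line
-/

namespace Vale.Agent.N208

open Set Filter Topology
open P208 (DoublingWith)

/-- real Hilbert space -/
abbrev H : Type := L2

theorem doubling_of {l : ℕ} {X : Set H} (h : P208.Doubling l X) : Doubling l X := by
  classical
  intro x r hr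
  obtain ⟨T, h1, h2, h3⟩ := h x x.2 r hr
  refine ⟨T.attach.image fun z => (⟨z.1, h2 z.2⟩ : X), ?_, fun y hy => ?_⟩
  · exact Finset.card_image_le.trans (by rw [Finset.card_attach]; exact h1)
  · obtain ⟨z, hz, hyz⟩ := h3 y y.2 (Metric.mem_closedBall.1 hy)
    exact mem_iUnion₂.2 ⟨⟨z, h2 hz⟩, Finset.mem_image.2 ⟨⟨z, hz⟩, Finset.mem_attach _ _, rfl⟩, hyz⟩

theorem old_of {X : Set H} {k : ℕ} {D : ℝ} (h : Embeds X (EuclideanSpace ℝ (Fin k)) D) :
    P208.Embeds X k D := by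
  classical
  obtain ⟨f, a, ha, hf⟩ := h
  refine ⟨fun x => if hx : x ∈ X then f ⟨x, hx⟩ else 0, a, ha, fun x hx y hy => ?_⟩
  simp only [hx, hy, dif_pos]
  exact hf ⟨x, hx⟩ ⟨y, hy⟩

section general

variable {X Y Z : Type} [MetricSpace X] [MetricSpace Y] [MetricSpace Z]

theorem Embeds.trans {D E : ℝ} (h : Embeds X Y D) (k : Embeds Y Z E) : Embeds X Z (|D| * |E|) := by
  obtain ⟨f, a, ha, hf⟩ := h
  obtain ⟨g, b, hb, hg⟩ := k
  refine ⟨g ∘ f, b * a, mul_pos hb ha, fun x y => ⟨?_, ?_⟩⟩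
  · rw [mul_assoc]
    exact (mul_le_mul_of_nonneg_left (hf x y).1 hb.le).trans (hg _ _).1
  · calc dist (g (f x)) (g (f y)) ≤ E * b * dist (f x) (f y) := (hg _ _).2
      _ ≤ |E| * b * dist (f x) (f y) := by gcongr; exact le_abs_self E
      _ ≤ |E| * b * (D * a * dist x y) := by gcongr; exact (hf x y).2
      _ ≤ |E| * b * (|D| * a * dist x y) := by gcongr; exact le_abs_self D
      _ = _ := by ring

theorem Embeds.mono {D E : ℝ} (h : Embeds X Y D) (k : D ≤ E) : Embeds X Y E := by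
  obtain ⟨f, a, ha, hf⟩ := h
  exact ⟨f, a, ha, fun x y => ⟨(hf x y).1, (hf x y).2.trans (by gcongr)⟩⟩

theorem embeds_sim (f : X → Y) {a : ℝ} (ha : 0 < a) (h : ∀ x y, dist (f x) (f y) = a * dist x y) :
    Embeds X Y 1 := ⟨f, a, ha, fun x y => by rw [h, one_mul]; exact ⟨le_rfl, le_rfl⟩⟩

theorem embeds_euc {k j : ℕ} (h : k ≤ j) :
    Embeds (EuclideanSpace ℝ (Fin k)) (EuclideanSpace ℝ (Fin j)) 1 := by
  refine embeds_sim (fun v => WithLp.toLp 2
    (fun i : Fin j => if hi : (i : ℕ) < k then v ⟨i, hi⟩ else 0)) one_pos fun v w => ?_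
  rw [one_mul, EuclideanSpace.dist_eq, EuclideanSpace.dist_eq]
  congr 1
  obtain ⟨t, rfl⟩ := Nat.exists_eq_add_of_le h
  rw [Fin.sum_univ_add]
  simp

theorem embeds_fin (Y : Type) [NormedAddCommGroup Y] [NormedSpace ℝ Y] [FiniteDimensional ℝ Y] :
    ∃ (k : ℕ) (D : ℝ), Embeds Y (EuclideanSpace ℝ (Fin k)) D := by
  obtain ⟨k, D, f, a, ha, hf⟩ := P208.D257.embeds_of_finiteDimensional (univ : Set Y)
  exact ⟨k, D, f, a, ha, fun x y => hf x trivial y trivial⟩

/-- the snowflakes of a finite space converge to it -/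
theorem snow [Finite X] : ∃ b < (1 : ℝ), ∀ (α : ℝ) (h0 : 0 < α) (h1 : α ≤ 1), b ≤ α →
    Embeds X (Metric.Snowflaking X α h0 h1) 2 := by
  have : ∀ᶠ α : ℝ in 𝓝 1, ∀ x y : X, 2 / 3 * dist x y ≤ dist x y ^ α ∧
      dist x y ^ α ≤ 2 * (2 / 3) * dist x y := by
    refine eventually_all.2 fun x => eventually_all.2 fun y => ?_
    rcases (dist_nonneg (x := x) (y := y)).eq_or_lt with e | e
    · filter_upwards [lt_mem_nhds (one_pos : (0 : ℝ) < 1)] with α hα
      rw [← e, Real.zero_rpow hα.ne']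
      simp
    · have t : Tendsto (fun α : ℝ => dist x y ^ α) (𝓝 1) (𝓝 (dist x y)) := by
        simpa using (Real.continuousAt_const_rpow (b := 1) e.ne').tendsto
      exact (t.eventually (le_mem_nhds (by linarith))).and
        (t.eventually (ge_mem_nhds (by linarith)))
  obtain ⟨δ, hδ, h⟩ := Metric.eventually_nhds_iff.1 this
  refine ⟨1 - δ / 2, by linarith, fun α h0 h1 hb => ⟨Metric.Snowflaking.toSnowflaking, 2 / 3,
    by norm_num, h ?_⟩⟩
  rw [Real.dist_eq, abs_lt]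
  constructor <;> linarith

end general

/-- Dvoretzky's theorem for the span of a finite set -/
theorem dv {Y : Type} [NormedAddCommGroup Y] [NormedSpace ℝ Y] (hY : ¬FiniteDimensional ℝ Y)
    {S : Set H} (hS : S.Finite) {δ : ℝ} (hδ : 0 < δ) : ∃ T : H →ₗ[ℝ] Y,
      ∀ x ∈ Submodule.span ℝ S, ‖x‖ ≤ ‖T x‖ ∧ ‖T x‖ ≤ (1 + δ) * ‖x‖ := by
  have := FiniteDimensional.span_of_finite ℝ hS
  obtain ⟨A, hA⟩ := P208.D257.dvoretzky hY _ hδ
  let e := (stdOrthonormalBasis ℝ (Submodule.span ℝ S)).repr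
  refine ⟨A ∘ₗ e.toLinearEquiv.toLinearMap ∘ₗ
    (Submodule.span ℝ S).orthogonalProjectionOnto.toLinearMap,
    fun x hx => ?_⟩
  have := hA (e ⟨x, hx⟩)
  rw [e.norm_map] at this
  have k := (Submodule.span ℝ S).orthogonalProjectionOnto_mem_subspace_eq_self ⟨x, hx⟩
  simpa [k] using this

/-- a direction that separates the points of countably many finite sets -/
theorem ex_dir (e : H) {W : Set H} (hW : W.Countable) :
    ∃ u : H, ‖u - e‖ < 1 / 4 ∧ ∀ w ∈ W, w ≠ 0 → inner ℝ u w ≠ 0 := by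
  have := dense_biInter_of_isOpen (S := W \ {0}) (f := fun w => {u : H | inner ℝ u w ≠ 0})
    (fun w _ => isOpen_ne_fun (by fun_prop) continuous_const) (hW.mono sdiff_subset) fun w hw u => ?_
  · obtain ⟨u, a, b⟩ := this.exists_mem_open Metric.isOpen_ball
      ⟨e, Metric.mem_ball_self (by norm_num : (0 : ℝ) < 1 / 4)⟩
    exact ⟨u, mem_ball_iff_norm.1 b, fun w h k => mem_iInter₂.1 a w ⟨h, k⟩⟩
  by_cases h : inner ℝ u w = 0
  · have t : Tendsto (fun t : ℝ => u + t • w) (𝓝[>] 0) (𝓝 u) := by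
      have : Continuous fun t : ℝ => u + t • w := by fun_prop
      simpa using (this.tendsto 0).mono_left nhdsWithin_le_nhds
    refine mem_closure_of_tendsto t (eventually_nhdsWithin_of_forall fun t ht => ?_)
    show inner ℝ (u + t • w) w ≠ 0
    rw [inner_add_left, h, zero_add, real_inner_smul_left]
    exact mul_ne_zero (ne_of_gt ht) (inner_self_ne_zero.2 hw.2)
  · exact subset_closure h

/-- the unit vector -/
noncomputable def e0 : H := lp.single 2 0 1

theorem norm_e0 : ‖e0‖ = 1 := P208.orthonormal_single.1 0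

/-- the pieces -/
structure Pc (lam : ℕ) (φ : ℝ → ℝ) (u : H) (Q : ℕ → Set H) : Prop where
  fin : ∀ i, (Q i).Finite
  card : ∀ i, (Q i).encard ≤ i
  dbl : ∀ i, DoublingWith lam (Q i)
  near : ∀ i, ∀ x ∈ Q i, ‖x - (1 / 8 : ℝ) ^ i • e0‖ ≤ 1 / 50 * (1 / 16) ^ i
  dir : ∀ i, ∀ x ∈ Q i, ∀ y ∈ Q i, ‖x - y‖ ≤ φ ‖x - y‖ * |inner ℝ u (x - y)|
  bad : ∀ (k : ℕ) (D : ℝ), ∃ i, ¬Embeds (Q i) (EuclideanSpace ℝ (Fin k)) D

theorem ex_pc : ∃ lam, ∀ φ : ℝ → ℝ, Tendsto φ (𝓝[>] 0) atTop →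
    ∃ u Q, ‖u - (3 / 4 : ℝ) • e0‖ < 1 / 4 ∧ Pc lam φ u Q := by
  obtain ⟨lam, h⟩ := P208.exists_finite_counterexamples
  choose F f1 f2 f3 using fun j : ℕ => h j j
  refine ⟨lam, fun φ hφ => ?_⟩
  obtain ⟨u, u1, u2⟩ := ex_dir ((3 / 4 : ℝ) • e0) (W := ⋃ j, image2 (· - ·) (F j) (F j))
    (countable_iUnion fun j => ((f1 j).image2 _ (f1 j)).countable)
  have ev : ∀ j, ∀ᶠ i : ℕ in atTop, (F j).encard ≤ i ∧ ∀ t, 0 < t → t ≤ (1 / 8 : ℝ) ^ i →
      ∀ x ∈ F j, ∀ y ∈ F j, ‖x - y‖ ≤ φ t * |inner ℝ u (x - y)| := fun j => by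
    have a : ∀ᶠ t in 𝓝[>] (0 : ℝ), ∀ x ∈ F j, ∀ y ∈ F j,
        ‖x - y‖ ≤ φ t * |inner ℝ u (x - y)| := by
      refine (eventually_all_finite (f1 j)).2 fun x hx =>
        (eventually_all_finite (f1 j)).2 fun y hy => ?_
      by_cases e : x - y = 0
      · simp [e]
      · have p := abs_pos.2 (u2 _ (mem_iUnion.2 ⟨j, mem_image2_of_mem hx hy⟩) e)
        filter_upwards [hφ.eventually_ge_atTop (‖x - y‖ / |inner ℝ u (x - y)|)] with t ht
        exact (div_le_iff₀ p).1 ht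
    obtain ⟨δ, hδ, b⟩ := (nhdsGT_basis (0 : ℝ)).eventually_iff.1 a
    have c := (tendsto_pow_atTop_nhds_zero_of_lt_one (r := (1 / 8 : ℝ)) (by norm_num)
      (by norm_num)).eventually (gt_mem_nhds hδ)
    filter_upwards [c, eventually_ge_atTop (F j).ncard] with i h1 h2
    exact ⟨by rw [← (f1 j).cast_ncard_eq]; exact_mod_cast h2, fun t p q => b ⟨p, q.trans_lt h1⟩⟩
  obtain ⟨σ, s1, s2⟩ := extraction_forall_of_eventually ev
  let P := Function.extend σ F fun _ => ∅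
  have pσ : ∀ j, P (σ j) = F j := s1.injective.extend_apply _ _
  have ind : ∀ p : ℕ → Set H → Prop, (∀ j, p (σ j) (F j)) → (∀ i, p i ∅) → ∀ i, p i (P i) :=
    fun p a b i => by
      by_cases e : ∃ j, σ j = i
      · obtain ⟨j, rfl⟩ := e
        rw [pσ]
        exact a j
      · rw [show P i = ∅ from Function.extend_apply' _ _ _ e]
        exact b i
  have pf := ind (fun _ S => S.Finite) f1 fun _ => finite_empty
  have sc : ∀ i, ∃ s : ℝ, 0 < s ∧ ∀ x ∈ P i, s * ‖x‖ ≤ 1 / 50 * (1 / 16) ^ i := fun i => by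
    obtain ⟨R, r0, r⟩ := (pf i).isBounded.exists_pos_norm_le
    refine ⟨1 / 50 * (1 / 16) ^ i / R, by positivity, fun x hx => ?_⟩
    rw [div_mul_eq_mul_div, div_le_iff₀ r0]
    exact mul_le_mul_of_nonneg_left (r x hx) (by positivity)
  choose s s0 sb using sc
  let g : ℕ → H → H := fun i x => (1 / 8 : ℝ) ^ i • e0 + s i • x
  have gs : ∀ i x y, g i x - g i y = s i • (x - y) := fun i x y => by
    simp only [g, smul_sub]
    abel
  have gd : ∀ i x y, dist (g i x) (g i y) = s i * dist x y := fun i x y => by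
    rw [dist_eq_norm, gs, norm_smul, Real.norm_of_nonneg (s0 i).le, dist_eq_norm]
  refine ⟨u, fun i => g i '' P i, u1, fun i => (pf i).image _, fun i => (encard_image_le _ _).trans
    (ind (fun i S => S.encard ≤ i) (fun j => (s2 j).1) (by simp) i), fun i => ?_, ?_, ?_,
    fun k D => ?_⟩
  · refine (ind (fun _ S => DoublingWith lam S) (fun j x hx r hr => ?_) (fun _ _ h => h.elim)
      i).image _ _ (s0 i) (gd i)
    obtain ⟨T, a, b, c⟩ := f2 j x hx r hr
    exact ⟨T, a, b, fun y hy e => (c y hy e).imp fun _ d => ⟨d.1, d.2.le⟩⟩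
  · rintro i _ ⟨x, hx, rfl⟩
    rw [add_sub_cancel_left, norm_smul, Real.norm_of_nonneg (s0 i).le]
    exact sb i x hx
  · rintro i _ ⟨x, hx, rfl⟩ _ ⟨y, hy, rfl⟩
    rcases (norm_nonneg (g i x - g i y)).eq_or_lt with e | e
    · simp [norm_eq_zero.1 e.symm]
    have := ind (fun i S => ∀ t, 0 < t → t ≤ (1 / 8 : ℝ) ^ i → ∀ x ∈ S, ∀ y ∈ S,
      ‖x - y‖ ≤ φ t * |inner ℝ u (x - y)|) (fun j => (s2 j).2) (fun _ _ _ _ _ h => h.elim) i _ e
      ?_ x hx y hy
    · generalize φ _ = c at this ⊢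
      rw [gs, norm_smul, real_inner_smul_right, abs_mul, Real.norm_eq_abs, mul_left_comm]
      exact mul_le_mul_of_nonneg_left this (abs_nonneg _)
    rw [gs, norm_smul, Real.norm_of_nonneg (s0 i).le]
    have a := mul_le_mul_of_nonneg_left (norm_sub_le x y) (s0 i).le
    have b : (1 / 16 : ℝ) ^ i ≤ (1 / 8) ^ i := by gcongr; norm_num
    have c : (0 : ℝ) ≤ (1 / 16) ^ i := by positivity
    linarith [sb i x hx, sb i y hy, mul_add (s i) ‖x‖ ‖y‖]
  · obtain ⟨j, hj⟩ := exists_nat_ge (max (k : ℝ) |D|)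
    refine ⟨σ j, fun a => f3 j (old_of ?_)⟩
    have b : Embeds (F j) (g (σ j) '' P (σ j)) 1 := embeds_sim
      (fun x => ⟨g (σ j) x, x, by rw [pσ]; exact x.2, rfl⟩) (s0 _) fun x y => gd _ _ _
    refine ((b.trans a).trans (embeds_euc (Nat.cast_le.1 ((le_max_left _ _).trans hj)))).mono ?_
    simpa using (le_max_right _ _).trans hj

/-- positions -/
noncomputable def tt (a : Option ℕ) : ℝ := a.elim 0 fun i => (1 / 8) ^ i

theorem tt_nonneg (a) : 0 ≤ tt a := by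
  cases a
  exacts [le_rfl, pow_nonneg (by norm_num) _]

theorem gap {a b : Option ℕ} (h : a ≠ b) : 7 / 8 * tt a ≤ |tt a - tt b| := by
  have k : ∀ i j : ℕ, i < j → (1 / 8 : ℝ) ^ j ≤ 1 / 8 * (1 / 8) ^ i := fun i j e => by
    rw [← pow_succ']
    exact pow_le_pow_of_le_one (by norm_num) (by norm_num) e
  rcases a with _ | i
  · simp [tt]
  have p := tt_nonneg (some i)
  rcases b with _ | j
  · exact le_abs.2 (.inl (by rw [show tt none = 0 from rfl]; linarith))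
  rcases lt_or_gt_of_ne (fun e => h (congrArg some e) : i ≠ j) with e | e
  · exact le_abs.2 (.inl (by have : tt (some j) ≤ 1 / 8 * tt (some i) := k i j e; linarith))
  · exact le_abs.2 (.inr (by have : tt (some i) ≤ 1 / 8 * tt (some j) := k j i e; linarith))

namespace Pc

variable {lam : ℕ} {φ : ℝ → ℝ} {u : H} {Q : ℕ → Set H} (h : Pc lam φ u Q)
include h

theorem near' (a : Option ℕ) (x : H) (hx : x ∈ a.elim {0} Q) : ‖x - tt a • e0‖ ≤ 1 / 50 * tt a := by
  rcases a with _ | i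
  · simp [show x = 0 from hx, tt]
  · refine (h.near i x hx).trans ?_
    show _ ≤ 1 / 50 * (1 / 8 : ℝ) ^ i
    gcongr
    norm_num

theorem cross {a b : Option ℕ} (e : a ≠ b) {x y : H} (hx : x ∈ a.elim {0} Q)
    (hy : y ∈ b.elim {0} Q) : ‖x - y - (tt a - tt b) • e0‖ ≤ 1 / 20 * |tt a - tt b| := by
  have := norm_sub_le (x - tt a • e0) (y - tt b • e0)
  rw [show x - tt a • e0 - (y - tt b • e0) = x - y - (tt a - tt b) • e0 by module] at this
  have k := gap e.symm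
  rw [abs_sub_comm] at k
  linarith [h.near' a x hx, h.near' b y hy, gap e, abs_nonneg (tt a - tt b)]

theorem far {a b : Option ℕ} (e : a ≠ b) {x y : H} (hx : x ∈ a.elim {0} Q)
    (hy : y ∈ b.elim {0} Q) : tt a ≤ 2 * ‖x - y‖ := by
  have := norm_sub_norm_le ((tt a - tt b) • e0) (x - y)
  rw [norm_sub_rev (_ • e0), norm_smul, norm_e0, mul_one, Real.norm_eq_abs] at this
  linarith [h.cross e hx hy, gap e, tt_nonneg a]

omit h in
theorem lab (x : H) (hx : x ∈ insert 0 (⋃ i, Q i)) : ∃ a : Option ℕ, x ∈ a.elim {0} Q :=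
  hx.elim (fun e => ⟨none, e⟩) fun e => (mem_iUnion.1 e).elim fun i k => ⟨some i, k⟩

/-- the projection to a line -/
theorem line (h3 : ∀ t, 3 ≤ φ t) (hu : ‖u - (3 / 4 : ℝ) • e0‖ < 1 / 4) : ∃ v : H, ‖v‖ = 1 ∧
    ∀ x ∈ insert 0 (⋃ i, Q i), ∀ y ∈ insert 0 (⋃ i, Q i),
      ‖x - y‖ ≤ φ ‖x - y‖ * |inner ℝ v (x - y)| := by
  have n34 : ‖(3 / 4 : ℝ) • e0‖ = 3 / 4 := by rw [norm_smul, norm_e0]; norm_num
  have u1 : ‖u‖ ≤ 1 := by linarith [norm_sub_norm_le u ((3 / 4 : ℝ) • e0)]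
  have u0 : 0 < ‖u‖ := by
    linarith [norm_sub_norm_le ((3 / 4 : ℝ) • e0) u, norm_sub_rev ((3 / 4 : ℝ) • e0) u]
  have u2 : 1 / 2 ≤ inner ℝ u e0 := by
    have := abs_real_inner_le_norm (u - (3 / 4 : ℝ) • e0) e0
    rw [inner_sub_left, real_inner_smul_left, real_inner_self_eq_norm_sq, norm_e0] at this
    linarith [(abs_le.1 this).1]
  refine ⟨‖u‖⁻¹ • u, norm_smul_inv_norm (norm_pos_iff.1 u0), fun x hx y hy => le_trans ?_
    (mul_le_mul_of_nonneg_left (?_ : |inner ℝ u (x - y)| ≤ _) (by linarith [h3 ‖x - y‖]))⟩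
  · obtain ⟨a, p⟩ := lab x hx
    obtain ⟨b, q⟩ := lab y hy
    by_cases e : a = b
    · subst e
      rcases a with _ | i
      · simp [show x = 0 from p, show y = 0 from q]
      · exact h.dir i x p y q
    have c := h.cross e p q
    have c1 := norm_sub_norm_le (x - y) ((tt a - tt b) • e0)
    rw [norm_smul, norm_e0, mul_one, Real.norm_eq_abs] at c1
    have c2 := abs_real_inner_le_norm u (x - y - (tt a - tt b) • e0)
    have c3 := abs_sub_abs_le_abs_sub ((tt a - tt b) * inner ℝ u e0) (inner ℝ u (x - y))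
    rw [inner_sub_right u (x - y), real_inner_smul_right, abs_sub_comm] at c2
    rw [abs_mul, abs_of_nonneg (by linarith : 0 ≤ inner ℝ u e0)] at c3
    have c4 := mul_le_mul_of_nonneg_left u2 (abs_nonneg (tt a - tt b))
    have c5 := mul_le_mul_of_nonneg_right u1 (norm_nonneg (x - y - (tt a - tt b) • e0))
    have c6 := mul_le_mul_of_nonneg_right (h3 ‖x - y‖) (abs_nonneg (inner ℝ u (x - y)))
    linarith [abs_nonneg (tt a - tt b)]
  · rw [real_inner_smul_left, abs_mul, abs_of_pos (inv_pos.2 u0)]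
    exact le_mul_of_one_le_left (abs_nonneg _) ((one_le_inv₀ u0).2 u1)

theorem size (i : ℕ) (x : H) (hx : x ∈ Q i) : ‖x‖ ≤ 2 * (1 / 8) ^ i := by
  have := norm_sub_norm_le x (tt (some i) • e0)
  rw [norm_smul, norm_e0, mul_one, Real.norm_of_nonneg (tt_nonneg _)] at this
  have k := h.near' (some i) x hx
  have : ‖x‖ ≤ 2 * tt (some i) := by linarith [tt_nonneg (some i)]
  exact this

theorem count (n : ℕ) :
    {x ∈ insert 0 (⋃ i, Q i) | (1 / 2 : ℝ) ^ n ≤ ‖x‖}.encard ≤ (n : ℕ∞) ^ 2 := by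
  have k : ∀ n : ℕ, (⋃ i ∈ Finset.range n, Q i).encard ≤ (n : ℕ∞) ^ 2 := fun n => by
    induction n with
    | zero => simp
    | succ n ih =>
      rw [Finset.range_add_one, Finset.set_biUnion_insert]
      refine ((encard_union_le _ _).trans (add_le_add (h.card n) ih)).trans ?_
      exact_mod_cast (by nlinarith : n + n ^ 2 ≤ (n + 1) ^ 2)
  refine (encard_le_encard fun x hx => ?_).trans (k n)
  obtain ⟨a, b⟩ := hx
  have p : (0 : ℝ) < (1 / 2) ^ n := by positivity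
  rcases a with rfl | a
  · exact absurd b (by simp)
  obtain ⟨i, a⟩ := mem_iUnion.1 a
  refine mem_biUnion (Finset.mem_coe.2 (Finset.mem_range.2 (not_le.1 fun c => ?_))) a
  have i1 : 1 ≤ i := by exact_mod_cast (one_le_encard_iff_nonempty.2 ⟨x, a⟩).trans (h.card i)
  have c1 : (1 / 2 : ℝ) ^ i ≤ (1 / 2) ^ n := pow_le_pow_of_le_one (by norm_num) (by norm_num) c
  have c2 : (1 / 4 : ℝ) ^ i ≤ (1 / 4) ^ 1 := pow_le_pow_of_le_one (by norm_num) (by norm_num) i1
  have c3 : (1 / 8 : ℝ) ^ i = (1 / 4) ^ i * (1 / 2) ^ i := by rw [← mul_pow]; norm_num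
  have c4 := mul_le_mul c2 c1 (by positivity) (by positivity)
  linarith [h.size i x a]

theorem cpt : IsCompact (insert 0 (⋃ i, Q i)) :=
  P208.D257.isCompact_pieces 0 Q h.fin (ρ := fun i => 2 * (1 / 8) ^ i)
    (by simpa using (tendsto_pow_atTop_nhds_zero_of_lt_one (r := (1 / 8 : ℝ)) (by norm_num)
      (by norm_num)).const_mul 2) fun i x hx => by rw [dist_zero_right]; exact h.size i x hx

theorem dbl' : DoublingWith (max lam 2) (⋃ i, Q i) :=
  P208.glue_doubling_shrink lam Q (fun i => (1 / 8 : ℝ) ^ i • e0)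
    (fun i x hx => by rw [dist_eq_norm]; exact h.near' (some i) x hx) (fun i j => by
      rw [dist_eq_norm, ← sub_smul, norm_smul, norm_e0, mul_one, Real.norm_eq_abs]) h.dbl

/-- the almost isometric embedding -/
theorem univ {Y : Type} [NormedAddCommGroup Y] [NormedSpace ℝ Y] (hY : ¬FiniteDimensional ℝ Y)
    {ε : ℝ} (hε : 0 < ε) {X : Set H} (hX : X ⊆ insert 0 (⋃ i, Q i)) : Embeds X Y (1 + ε) := by
  classical
  obtain ⟨η, η0, η1, η2⟩ : ∃ η : ℝ, 0 < η ∧ η ≤ 1 / 20 ∧ 20 * η ≤ ε :=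
    ⟨min ε 1 / 20, by positivity, by linarith [min_le_right ε 1], by linarith [min_le_left ε 1]⟩
  obtain ⟨N, hN⟩ := exists_pow_lt_of_lt_one η0 (by norm_num : (1 / 2 : ℝ) < 1)
  choose l hl using fun x : X => lab x.1 (hX x.2)
  obtain ⟨T, hT⟩ := dv hY (S := insert e0 (⋃ i < N, Q i))
    (((finite_lt_nat N).biUnion fun i _ => h.fin i).insert _) η0
  choose S hS using fun a : Option ℕ => dv hY (S := (· - tt a • e0) '' a.elim {0} Q)
    (Finite.image _ (by cases a; exacts [finite_singleton _, h.fin _])) η0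
  let late : Option ℕ → Prop := fun a => ∃ i, N ≤ i ∧ a = some i
  let b : X → H := fun x => if late (l x) then tt (l x) • e0 else x
  have b1 : ∀ x, b x ∈ Submodule.span ℝ (insert e0 (⋃ i < N, Q i)) := fun x => by
    simp only [b]
    split_ifs with e
    · exact Submodule.smul_mem _ _ (Submodule.subset_span (mem_insert _ _))
    have := hl x
    rcases a : l x with _ | i
    · rw [a] at this
      rw [show (x : H) = 0 from this]
      exact zero_mem _
    · rw [a] at this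
      exact Submodule.subset_span (.inr (mem_biUnion (not_le.1 fun c => e ⟨i, c, a⟩) this))
  have b2 : ∀ x : X, x - b x ∈ Submodule.span ℝ ((· - tt (l x) • e0) '' (l x).elim {0} Q) :=
    fun x => by
      simp only [b]
      split_ifs
      · exact Submodule.subset_span ⟨x, hl x, rfl⟩
      · rw [sub_self]
        exact zero_mem _
  have b3 : ∀ x : X, ‖x - b x‖ ≤ η / 50 * tt (l x) := fun x => by
    simp only [b]
    split_ifs with e
    · obtain ⟨i, c, a⟩ := e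
      have := hl x
      rw [a] at this ⊢
      refine (h.near i x this).trans ?_
      have c1 : (1 / 2 : ℝ) ^ i ≤ (1 / 2) ^ N := pow_le_pow_of_le_one (by norm_num) (by norm_num) c
      have c3 : (1 / 16 : ℝ) ^ i = (1 / 2) ^ i * tt (some i) := by
        rw [show tt (some i) = (1 / 8) ^ i from rfl, ← mul_pow]
        norm_num
      nlinarith [tt_nonneg (some i)]
    · rw [sub_self, norm_zero]
      exact mul_nonneg (by positivity) (tt_nonneg _)
  refine ⟨fun x => T (b x) + S (l x) (x - b x), 1 - 3 * η, by linarith, fun x y => ?_⟩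
  rw [Subtype.dist_eq, dist_eq_norm, dist_eq_norm]
  beta_reduce
  have d0 := norm_nonneg ((x : H) - y)
  suffices k : (1 - 3 * η) * ‖(x : H) - y‖ ≤ _ ∧ _ ≤ (1 + 5 * η) * ‖(x : H) - y‖ from
    ⟨k.1, k.2.trans (mul_le_mul_of_nonneg_right (by nlinarith) d0)⟩
  by_cases e : l x = l y ∧ late (l x)
  · have c : b x = b y := by simp only [b, ← e.1, if_pos e.2]
    have c1 := hS _ _ (sub_mem (b2 x) (e.1 ▸ b2 y))
    rw [← e.1, c, add_sub_add_left_eq_sub, ← map_sub]
    rw [c] at c1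
    rw [sub_sub_sub_cancel_right] at c1 ⊢
    constructor <;> nlinarith [c1.1, c1.2]
  have o : ‖x - b x‖ + ‖y - b y‖ ≤ η * ‖(x : H) - y‖ := by
    by_cases c : l x = l y
    · have c1 : ¬late (l x) := fun k => e ⟨c, k⟩
      simp only [b, ← c, if_neg c1, sub_self, norm_zero, add_zero]
      positivity
    · have c1 := h.far c (hl x) (hl y)
      have c2 := h.far (Ne.symm c) (hl y) (hl x)
      rw [norm_sub_rev] at c2
      nlinarith [b3 x, b3 y]
  have v := hT _ (sub_mem (b1 x) (b1 y))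
  have v1 := abs_le.1 ((abs_norm_sub_norm_le ((x : H) - y) (b x - b y)).trans (le_trans
    (by rw [show (x : H) - y - (b x - b y) = x - b x - (y - b y) by abel]; exact norm_sub_le _ _) o))
  have v2 : ‖S (l x) (x - b x) - S (l y) (y - b y)‖ ≤ 2 * η * ‖(x : H) - y‖ := by
    have := norm_sub_le (S (l x) (x - b x)) (S (l y) (y - b y))
    nlinarith [(hS _ _ (b2 x)).2, (hS _ _ (b2 y)).2, norm_nonneg ((x : H) - b x),
      norm_nonneg ((y : H) - b y)]
  rw [add_sub_add_comm, ← map_sub]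
  have v3 := norm_add_le (T (b x - b y)) (S (l x) (x - b x) - S (l y) (y - b y))
  have v4 := norm_sub_le (T (b x - b y) + (S (l x) (x - b x) - S (l y) (y - b y)))
    (S (l x) (x - b x) - S (l y) (y - b y))
  rw [add_sub_cancel_right] at v4
  have v5 := mul_le_mul_of_nonneg_left (show ‖b x - b y‖ ≤ (1 + η) * ‖(x : H) - y‖ by linarith [v1.1])
    (show 0 ≤ 1 + η by linarith)
  have v6 := mul_le_mul_of_nonneg_right η1 (mul_nonneg η0.le d0)
  constructor <;> nlinarith [v.1, v.2, v1.2]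

end Pc

theorem embeds_sub {X Y : Set H} (h : X ⊆ Y) : Embeds X Y 1 :=
  embeds_sim (inclusion h) one_pos fun _ _ => (one_mul _).symm

theorem no_snow {F X : Set H} (hF : F.Finite) (h : F ⊆ X) {Z : Type} [MetricSpace Z] {D : ℝ}
    (k : ¬Embeds F Z (2 * |D|)) : ∃ b < (1 : ℝ), ∀ (α : ℝ) (h0 : 0 < α) (h1 : α ≤ 1), b ≤ α →
      ¬Embeds (Metric.Snowflaking X α h0 h1) Z D := by
  have := hF.to_subtype
  obtain ⟨b, b1, b2⟩ := snow (X := F)
  refine ⟨b, b1, fun α h0 h1 hb a => k ?_⟩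
  have c : Embeds (Metric.Snowflaking F α h0 h1) (Metric.Snowflaking X α h0 h1) 1 :=
    embeds_sim (fun x => ⟨inclusion h x.1⟩) one_pos fun _ _ => (one_mul _).symm
  simpa using ((b2 α h0 h1 hb).trans c).trans a

/-- no almost bi-Lipschitz embedding for some unbounded gauge -/
theorem gauge {X : Set H} (h : ∀ (k : ℕ) (D : ℝ), ∃ F, F ⊆ X ∧ F.Finite ∧
    ¬Embeds F (EuclideanSpace ℝ (Fin k)) D) : ∃ ψ : ℝ → ℝ, (∀ t, 1 ≤ ψ t) ∧
      Tendsto ψ (𝓝[>] 0) atTop ∧ ∀ (k : ℕ) (f : X → EuclideanSpace ℝ (Fin k)) (C : ℝ),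
        ¬∀ x y, dist x y ≤ C * ψ (dist x y) * dist (f x) (f y) ∧
          dist (f x) (f y) ≤ C * dist x y := by
  choose F f1 f2 f3 using fun j : ℕ => h j (((j : ℝ) + 1) ^ 2)
  let A : ℝ → Set ℕ := fun t =>
    {j | 1 / ((j : ℝ) + 1) ≤ t ∨ ∃ x ∈ F j, ∃ y ∈ F j, x ≠ y ∧ dist x y ≤ t}
  refine ⟨fun t => (sInf (A t) : ℕ) + 1, fun t => by simp, tendsto_atTop_add_const_right _ _
    (tendsto_natCast_atTop_atTop.comp (tendsto_atTop.2 fun n => ?_)), fun k f C hf => ?_⟩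
  · have : ∀ᶠ t in 𝓝[>] (0 : ℝ), ∀ j ∈ Iio n, j ∉ A t := by
      refine (eventually_all_finite (finite_lt_nat n)).2 fun j _ => ?_
      have a : ∀ᶠ t in 𝓝[>] (0 : ℝ), ∀ x ∈ F j, ∀ y ∈ F j, x ≠ y → t < dist x y :=
        (eventually_all_finite (f2 j)).2 fun x _ => (eventually_all_finite (f2 j)).2 fun y _ =>
          eventually_imp_distrib_left.2 fun e =>
            nhdsWithin_le_nhds (gt_mem_nhds (dist_pos.2 e))
      filter_upwards [a, nhdsWithin_le_nhds (gt_mem_nhds (Nat.one_div_pos_of_nat (n := j)))]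
        with t p q r
      rcases r with r | ⟨x, b, y, c, d, e⟩
      exacts [not_lt.2 r q, not_lt.2 e (p x b y c d)]
    filter_upwards [this, self_mem_nhdsWithin] with t p q
    obtain ⟨j, hj⟩ := exists_nat_one_div_lt (show 0 < t from q)
    exact not_lt.1 fun c => p _ c (Nat.sInf_mem ⟨j, .inl hj.le⟩)
  obtain ⟨j, hj⟩ := exists_nat_ge (max (k : ℝ) ((|C| + 1) ^ 2))
  have c0 : 0 < |C| + 1 := by positivity
  have j0 : (0 : ℝ) < j + 1 := by positivity
  have c1 : C ≤ |C| + 1 := by linarith [le_abs_self C]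
  have b : Embeds (F j) (EuclideanSpace ℝ (Fin k)) (((j : ℝ) + 1) ^ 2) := by
    refine ⟨fun x => f (inclusion (f1 j) x), ((|C| + 1) * (j + 1))⁻¹, by positivity,
      fun x y => ?_⟩
    obtain ⟨p, q⟩ := hf (inclusion (f1 j) x) (inclusion (f1 j) y)
    rw [show dist (inclusion (f1 j) x) (inclusion (f1 j) y) = dist x y from rfl] at p q
    constructor
    · by_cases e : x = y
      · simp [e]
      have : sInf (A (dist x y)) ≤ j :=
        Nat.sInf_le (.inr ⟨x, x.2, y, y.2, fun c => e (Subtype.ext c), le_rfl⟩)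
      rw [inv_mul_le_iff₀ (by positivity)]
      refine p.trans ?_
      beta_reduce
      gcongr
    · refine q.trans (mul_le_mul_of_nonneg_right (c1.trans ?_) dist_nonneg)
      rw [← div_eq_mul_inv, le_div_iff₀ (by positivity)]
      nlinarith [(le_max_right _ _).trans hj]
  refine f3 j ((b.trans (embeds_euc (Nat.cast_le.1 ((le_max_left _ _).trans hj)))).mono ?_)
  simp

theorem main : ∃ lam : ℕ,
    (∀ (k : ℕ) (D : ℝ), ∃ F : Set H, F.Finite ∧ Doubling lam F ∧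
      ¬Embeds F (EuclideanSpace ℝ (Fin k)) D ∧
      ∃ b < (1 : ℝ), ∀ (α : ℝ) (h0 : 0 < α) (h1 : α ≤ 1), b ≤ α →
        ¬Embeds (Metric.Snowflaking F α h0 h1) (EuclideanSpace ℝ (Fin k)) D) ∧
    ∀ φ : ℝ → ℝ, (∀ t, 3 ≤ φ t) → Tendsto φ (𝓝[>] 0) atTop →
      ∃ X : Set H, IsCompact X ∧ Doubling lam X ∧
        (∀ (Y : Type) [NormedAddCommGroup Y] [NormedSpace ℝ Y],
          (FiniteDimensional ℝ Y → ∀ D, ¬Embeds X Y D) ∧
          (¬FiniteDimensional ℝ Y → ∀ ε > 0, Embeds X Y (1 + ε))) ∧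
        (∀ (k : ℕ) (D : ℝ), ∃ b < (1 : ℝ), ∀ (α : ℝ) (h0 : 0 < α) (h1 : α ≤ 1), b ≤ α →
          ¬Embeds (Metric.Snowflaking X α h0 h1) (EuclideanSpace ℝ (Fin k)) D) ∧
        (∀ n : ℕ, {x ∈ X | (1 / 2 : ℝ) ^ n ≤ ‖x‖}.encard ≤ (n : ℕ∞) ^ 2) ∧
        (∃ ψ : ℝ → ℝ, (∀ t, 1 ≤ ψ t) ∧ Tendsto ψ (𝓝[>] 0) atTop ∧
          ∀ (k : ℕ) (f : X → EuclideanSpace ℝ (Fin k)) (C : ℝ),
            ¬∀ x y, dist x y ≤ C * ψ (dist x y) * dist (f x) (f y) ∧
              dist (f x) (f y) ≤ C * dist x y) ∧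
        ∃ u : H, ‖u‖ = 1 ∧ ∀ x ∈ X, ∀ y ∈ X, ‖x - y‖ ≤ φ ‖x - y‖ * |inner ℝ u (x - y)| := by
  obtain ⟨lam, h⟩ := ex_pc
  refine ⟨max lam 2 * max lam 2 * (max lam 2 * max lam 2), fun k D => ?_, fun φ h3 hφ => ?_⟩
  · obtain ⟨u, Q, -, p⟩ := h _ tendsto_inv_nhdsGT_zero
    obtain ⟨i, a⟩ := p.bad k (2 * |D|)
    refine ⟨Q i, p.fin i, doubling_of ((p.dbl i).mono ?_).strict,
      fun b => a (b.mono (by linarith [le_abs_self D, abs_nonneg D])), no_snow (p.fin i) le_rfl a⟩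
    exact (le_max_left lam 2).trans (Nat.le_mul_self _)
  obtain ⟨u, Q, hu, p⟩ := h φ hφ
  have s : closure (⋃ i, Q i) ⊆ insert 0 (⋃ i, Q i) :=
    closure_minimal (subset_insert _ _) p.cpt.isClosed
  have q : ∀ i, Q i ⊆ closure (⋃ i, Q i) := fun i => (subset_iUnion Q i).trans subset_closure
  refine ⟨closure (⋃ i, Q i), p.cpt.of_isClosed_subset isClosed_closure s,
    doubling_of p.dbl'.closure.strict, fun Y _ _ => ⟨fun _ D a => ?_, fun a ε b => p.univ a b s⟩,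
    fun k D => ?_, fun n => le_trans (encard_le_encard fun x a => And.intro (s a.1) a.2) (p.count n),
    gauge fun k D => (p.bad k D).elim fun i a => ⟨Q i, q i, p.fin i, a⟩,
    (p.line h3 hu).imp fun v a => ⟨a.1, fun x b y c => a.2 x (s b) y (s c)⟩⟩
  · obtain ⟨k, E, b⟩ := embeds_fin Y
    obtain ⟨i, c⟩ := p.bad k _
    exact c ((embeds_sub (q i)).trans (a.trans b))
  · obtain ⟨i, a⟩ := p.bad k (2 * |D|)
    exact no_snow (p.fin i) (q i) a

end Vale.Agent.N208
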